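import Vale.Agent.P348.ChunkDefs

namespace Vale.Agent.P348.K

def c10_0_2_0 : Ch :=
  ⟨2, 80,
    [(2, 10), (4, 10), (10, 10), (28, 10), (82, 10), (244, 5)],
    [(55, 0), (210, 0), (1010, 0), (5430, 0), (31450, 0), (192410, 0), (1227170, 0), (8081570, 0), (54563610, 0), (375671010, 0), (2627078350, 0), (18603611390, 0), (133106841490, 0), (960593217690, 0), (6983066878230, 0), (51083466882710, 0), (375748093327450, 0)]⟩

theorem c10_0_2_0_ok : okB 6 false false c10_0_2_0 = true := by
  decide +kernel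

def c10_0_0_0 : Ch :=
  ⟨0, 80,
    [(0, 1)],
    [(1, 0), (0, 0), (0, 0), (0, 0), (0, 0), (0, 0), (0, 0), (0, 0), (0, 0), (0, 0), (0, 0), (0, 0), (0, 0), (0, 0), (0, 0), (0, 0), (0, 0)]⟩

theorem c10_0_0_0_ok : okB 6 false false c10_0_0_0 = true := by
  decide +kernel

def c10_1_2_0 : Ch :=
  ⟨2, 80,
    [(2, 10), (4, 10), (10, 10), (28, 10), (82, 10), (244, 5)],
    [(55, 0), (210, 0), (1010, 0), (5430, 0), (31450, 0), (192410, 0), (1227170, 0), (8081570, 0), (54563610, 0), (375671010, 0), (2627057870, 0), (18602714670, 0), (133084442770, 0), (960173131530, 0), (6976482908950, 0), (50992314316550, 0), (374595821906010, 0)]⟩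

theorem c10_1_2_0_ok : okB 6 true false c10_1_2_0 = true := by
  decide +kernel

end Vale.Agent.P348.K
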