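import Vale.Agent.P348.C.MA0

namespace Vale.Agent.P348.K

def c10_1_10_1 : Ch :=
  ⟨10, 159,
    [(1402, 20), (1412, 40), (1418, 40), (1424, 40), (1436, 20), (1610, 40), (1616, 40), (1646, 20), (1664, 40), (1670, 40), (1682, 40), (1688, 40), (1694, 10), (1772, 40), (1778, 40), (1808, 20), (1826, 40), (1832, 40), (1844, 40), (1850, 20), (1880, 40), (1886, 20), (1898, 40), (1970, 20), (1988, 40), (2006, 20), (2042, 20), (2420, 10), (2582, 20), (2588, 40), (2636, 40), (2642, 40), (2644, 20), (2654, 40), (2660, 40), (2662, 20), (2744, 20), (2750, 40), (2798, 40), (2804, 40), (2806, 40), (2816, 40)],
    [(1360, 0), (13560, 0), (148120, 0), (1733640, 0), (21440360, 0), (277478800, 0), (3731570920, 0), (51870478000, 0), (742256232360, 0), (10899871198440, 0), (163849129626160, 158400), (2516328061209880, 18705280), (39419361949085640, 1348109280), (629109519636115360, 76608903040), (10218323894280351240, 3666361267520), (168778226133588970400, 150389490353760), (2833012338392320046040, 5296072637855640), (48298911126790285674920, 157586165612152760), (835950915231283346703320, 3715858325923823920), (14682543709909998576563800, 50976863400238169080), (261599277370282386728780640, -1048998181692203693000), (4726407720199491671714360200, -123919018844478624271240), (86562658975633628090324031520, -6663860684890245356754840),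 (1606482526490838785780231500800, -285363055881004473316329880), (30199615530746133546014326607360, -10835798150177391411854371560), (574819999536605008313831827468840, -380500417009005009234648891240), (11073457085753875867326597077201320, -12626307857073003347229569252160), (215805735074015853017726111949276280, -401127313388216054038577708665640), (4252770873595180417422313173287292600, -12306551505797322508669004373069200), (84704543318540450882786155659717717680, -366875583394513755773073586151027840), (1704361697699008945911851319114604037760, -10676598678692240533574299255260148320), (34628404321060486521234303068898196571400, -304390429856167533991478342220123294160), (710096199248201727300300315622030746561400, -8526073479400820334145338702090650583360)]⟩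

theorem c10_1_10_1_ok : okB 6 true true c10_1_10_1 = true := by
  decide +kernel

end Vale.Agent.P348.K
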