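import Vale.Agent.P348.C.MA1

namespace Vale.Agent.P348.K

def c10_1_9_0 : Ch :=
  ⟨9, 149,
    [(161, 20), (215, 20), (233, 10), (323, 20), (377, 20), (395, 20), (401, 20), (403, 20), (431, 20), (449, 20), (455, 20), (457, 20), (467, 20), (473, 20), (479, 20), (539, 20), (557, 20), (563, 20), (593, 20), (611, 20), (617, 20), (629, 20), (665, 20), (809, 20), (863, 20), (881, 20), (887, 20), (889, 20), (917, 20), (935, 20), (941, 20), (943, 20), (953, 20), (959, 20), (961, 20), (965, 20), (967, 20), (1025, 20), (1043, 20), (1049, 20), (1051, 20), (1079, 20), (1097, 20), (1103, 20), (1105, 20), (1115, 20), (1121, 20), (1123, 20), (1127, 20), (1129, 20), (1151, 20), (1157, 20), (1159, 20), (1169, 20), (1175, 20), (1177, 20), (1181, 20), (1183, 10), (1193, 20), (1195, 20), (1199, 20), (1241, 20), (1259, 20)],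
    [(1240, 0), (10100, 0), (93820, 0), (957660, 0), (10522760, 0), (122839380, 0), (1509574860, 0), (19398063920, 0), (259313323640, 0), (3591790673560, 0), (51382152606120, 0), (757119033965440, 0), (11464986408998420, 0), (178061880892642560, 0), (2831249954677508380, 0), (46013745203749679800, 0), (763219136748953186700, 0), (12902217804734271440660, 0), (222014612907744327164820, 0), (3884142756820325207970660, 0), (69015106703990420254971500, 0), (1244258570481812906457013120, 0), (22741443430045681199910145400, 0), (421044834077253529096126194980, 0), (7891124392889749304268905149960, 0), (149616118005883408213454971085440, 0), (2868156052561658740670817922044600, 0), (55563676781684343664000280719595180, 0), (1087278050240884734617267937570338900, 0), (21481476733921869358956177761932678340, 0), (428336568425024922522079792860849998060, 0)]⟩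

theorem c10_1_9_0_ok : okB 6 true false c10_1_9_0 = true := by
  decide +kernel

end Vale.Agent.P348.K
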