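import Vale.Agent.P348.C.MA2

namespace Vale.Agent.P348.K

def c10_1_9_6 : Ch :=
  ⟨9, 149,
    [(7871, 20), (7873, 10), (7877, 20), (7889, 20), (7895, 20), (7949, 20), (8123, 10), (8135, 20), (8141, 20), (8147, 20), (8159, 20), (8165, 10), (8195, 20), (8201, 10), (8213, 20), (8303, 20), (8321, 10), (8357, 10), (9089, 20), (9095, 10), (9107, 20), (9113, 20), (9115, 20), (9119, 20), (9121, 20), (9131, 20), (9133, 20), (9137, 20), (9167, 20), (9169, 20), (9173, 20), (9185, 20), (9191, 20), (9275, 20), (9281, 20), (9293, 20), (9329, 20), (9599, 20), (9601, 20), (9605, 20), (9607, 10), (9617, 20), (9619, 10), (9623, 20), (9653, 20), (9659, 10), (9671, 10), (9761, 20), (9763, 20), (9767, 20), (9779, 20), (9815, 20), (9817, 10), (9821, 10), (9833, 20), (9839, 10), (9841, 10)],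
    [(990, 0), (12160, 0), (164140, 0), (2376960, 0), (36400160, 0), (583691520, 0), (9730321840, 0), (167697607500, 0), (2974880743400, 0), (54124803245560, 0), (1006956638401920, 0), (19108089151154280, 0), (369043653239740020, 0), (7240701142346351640, 0), (144084704802091733860, 0), (2903807501709205450160, 0), (59194561296440871479980, 0), (1219196710178851552614700, 0), (25346142271613712069581960, 0), (531387605149992898516296320, 0), (11226108242865426994597224960, 0), (238813331494771632590416042200, 0), (5112401714075364846824002417640, 0), (110073433874611799832456359479360, 0), (2382377564294239749064800334282960, 0), (51809699135704614885715914902219920, 0), (1131633517576676354297224776802351660, 0), (24816149687885310100057384531471930020, 0), (546200747095402319966260284600597924120, 0), (12062268222995296526085846582132177005600, 0), (267206205309158132741275163982918475716820, 0)]⟩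

theorem c10_1_9_6_ok : okB 6 true false c10_1_9_6 = true := by
  decide +kernel

end Vale.Agent.P348.K
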