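import Vale.Agent.P348.C.MA3

namespace Vale.Agent.P348.K

def c10_0_8_1 : Ch :=
  ⟨8, 80,
    [(2638, 20), (2648, 20), (2650, 20), (2656, 10), (2690, 20), (2696, 20), (2698, 20), (2708, 20), (2714, 20), (2716, 20), (2720, 20), (2722, 20), (2732, 20), (2734, 20), (2738, 20), (2740, 20), (2746, 20), (2762, 20), (2768, 20), (2770, 20), (2774, 20), (2776, 20), (2786, 20), (2788, 20), (2792, 20), (2794, 20), (2800, 10), (2810, 20), (2812, 20), (2840, 20), (2842, 20), (2846, 20), (2848, 20), (2864, 20), (2866, 20), (2960, 20), (2966, 20), (2968, 10), (2978, 20), (2984, 10), (3014, 20), (3020, 20), (3022, 20), (3032, 20), (3038, 20), (3040, 20), (3044, 20), (3046, 20), (3056, 20), (3058, 20), (3062, 20), (3064, 20), (3086, 20), (3092, 20), (3094, 20), (3098, 20), (3100, 20), (3110, 20), (3112, 20), (3116, 20), (3118, 20), (3134, 20), (3136, 10), (3176, 20), (3182, 10), (3194, 20), (3200, 20), (3202, 20), (3206, 20), (3208, 20), (3218, 20), (3220, 20), (3224, 20), (3226, 20), (3248, 10), (3254, 20), (3256, 20), (3260, 20), (3262, 20), (3272, 20), (3274, 20), (3278, 20), (3280,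 10), (3296, 20), (3326, 20), (3328, 20), (3332, 20), (3350, 20), (3416, 10), (3418, 20), (3422, 20), (3424, 10), (3434, 20), (3436, 20), (3440, 20), (3458, 20), (3488, 20), (3490, 20), (3494, 20), (3512, 10), (3692, 20), (3704, 20), (3706, 20), (3710, 20), (3740, 20), (3742, 20), (3746, 20), (3758, 20), (3760, 10), (3764, 20), (3782, 20), (3818, 20), (3836, 10), (3904, 5), (3908, 10), (3920, 20), (3926, 20), (3944, 20), (3980, 20), (4544, 10), (4550, 20), (4556, 10), (4568, 10), (4652, 20), (4658, 20), (4664, 20), (4676, 20), (4682, 20), (4712, 20), (4718, 20), (4730, 20), (4736, 10), (4880, 5), (4892, 20), (5198, 20), (5216, 10), (7388, 20), (7394, 10), (7406, 20), (7412, 20), (7414, 20), (7418, 20), (7420, 10), (7430, 20), (7432, 10), (7436, 20), (7466, 20), (7472, 10), (7484, 10), (7568, 10), (7574, 20), (7576, 20), (7580, 20), (7582, 20), (7592, 20), (7594, 20), (7598, 20), (7600, 20), (7628, 20), (7630, 20), (7634, 20), (7636, 20), (7646, 20), (7648, 20), (7652, 20), (7654, 10), (7706, 20), (7808, 10), (7810, 10), (7814, 20), (7868, 10), (8120, 10), (8132, 20), (8138,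 10), (9086, 20), (9088, 10), (9092, 10), (9104, 20), (9106, 20), (9110, 20), (9112, 10), (9272, 5), (9596, 10), (9598, 10), (9760, 5)],
    [(3280, 0), (36980, 0), (458860, 0), (6119000, 0), (86441760, 0), (1280899640, 0), (19764489520, 0), (315781122620, 0), (5200706327060, 0), (87966295459740, 0), (1523412561592000, 0), (26942752755714980, 0), (485544660353686440, 0), (8899203993349045000, 0), (165610880399907676700, 0), (3124742441163062157280, 0), (59700226773999894262200, 0)]⟩

theorem c10_0_8_1_ok : okB 6 false false c10_0_8_1 = true := by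
  decide +kernel

def c7_1_2_0 : Ch :=
  ⟨2, 160,
    [(2, 7), (4, 7), (10, 7), (28, 7)],
    [(28, 0), (105, 0), (497, 0), (2625, 0), (14917, 0), (89495, 0), (559811, 0), (3618475, 0), (24010581, 0), (162762243, 0), (1122993977, 0), (7863895991, 0), (55764093091, 0), (399695623887, 0), (2891311417757, 0), (21080608359545, 0), (154740735907989, 0), (1142443416817619, 0), (8476256102961017, 0), (63152748212072155, 0), (472195551920569897, 0), (3541228733209988485, 0), (26624626012721688525, 0), (200602096606842697879, 0), (1514122554840929072067, 0), (11445484590553940633595, 0), (86626065493001350694329, 0), (656318674395027008945223, 0), (4976884974977965417989453, 0), (37767150940892344101168283, 0), (286768898309364378313825391, 0), (2178548279889545011632043755, 0), (16557053716252496445861994901, 0), (125877809731585079076813911321, 0), (957282639323071390500265867185, 0), (7281736755415471245969381260175, 0), (55400796717550649556838561257889, 0)]⟩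

theorem c7_1_2_0_ok : okB 3 false false c7_1_2_0 = true := by
  decide +kernel

end Vale.Agent.P348.K
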