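import Vale.Agent.P348.ChunkDefs

namespace Vale.Agent.P348.K

def c10_1_5_0 : Ch :=
  ⟨5, 60,
    [(17, 20), (23, 10), (35, 20), (41, 20), (43, 20), (47, 20), (59, 20), (89, 20), (95, 20), (97, 20), (101, 20), (103, 20), (113, 20), (115, 20), (119, 20), (121, 10), (137, 20), (167, 20), (173, 10), (251, 20), (257, 20), (259, 20), (263, 20), (265, 20), (275, 20), (277, 20), (281, 20), (283, 20), (289, 20), (299, 20), (301, 20), (329, 20), (331, 20), (335, 20), (337, 20), (353, 20), (407, 20), (491, 20), (497, 20), (743, 20), (745, 10), (749, 10), (761, 20), (763, 20), (767, 20), (769, 20), (775, 20), (785, 20), (787, 20), (793, 20), (815, 20), (817, 20), (821, 20), (823, 20), (829, 20), (839, 20), (841, 20), (847, 10), (893, 20), (895, 20), (977, 20), (983, 20), (985, 20), (1001, 20), (1003, 10), (1055, 10), (1487, 10), (2273, 20), (2279, 20), (2281, 20), (2287, 10), (2297, 20), (2299, 10), (2441, 20), (2443, 10), (2459, 10), (2461, 20), (2467, 20), (2515, 20), (7381, 2)],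
    [(1452, 0), (11640, 0), (106460, 0), (1065540, 0), (11416100, 0), (129095220, 0), (1525697720, 0), (18708287660, 0), (236694661700, 0), (3076320075060, 0), (40929797841560, 0), (555866115087780, 0), (7687668067746080, 0)]⟩

theorem c10_1_5_0_ok : okB 6 true false c10_1_5_0 = true := by
  decide +kernel

def c10_1_3_0 : Ch :=
  ⟨3, 60,
    [(5, 20), (11, 20), (13, 10), (29, 20), (31, 20), (83, 20), (85, 20), (91, 10), (245, 10), (247, 20), (253, 20), (739, 10), (757, 10)],
    [(210, 0), (1140, 0), (7360, 0), (52620, 0), (404400, 0), (3283340, 0), (27840220, 0), (244546140, 0), (2211991120, 0), (20509274940, 0), (194215850500, 0), (1872843836420, 0), (18345569845740, 0)]⟩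

theorem c10_1_3_0_ok : okB 6 true false c10_1_3_0 = true := by
  decide +kernel

def c10_1_1_0 : Ch :=
  ⟨1, 60,
    [(1, 10)],
    [(10, 0), (20, 0), (60, 0), (200, 0), (700, 0), (2520, 0), (9240, 0), (34320, 0), (128700, 0), (486200, 0), (1847540, 0), (7053880, 0), (27036040, 0)]⟩

theorem c10_1_1_0_ok : okB 6 true false c10_1_1_0 = true := by
  decide +kernel

def c9_0_1_0 : Ch :=
  ⟨1, 87,
    [(1, 9)],
    [(9, 0), (18, 0), (54, 0), (180, 0), (630, 0), (2268, 0), (8316, 0), (30888, 0), (115830, 0), (437562, 0), (1662444, 0), (6344730, 0), (24300972, 0), (93336300, 0), (359280360, 0), (1385369730, 0), (5349138102, 0), (20675644308, 0), (79981638678, 0)]⟩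

theorem c9_0_1_0_ok : okB 5 true false c9_0_1_0 = true := by
  decide +kernel

end Vale.Agent.P348.K
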