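import Vale.Agent.P348.C.MB0

namespace Vale.Agent.P348.K

def c10_1_10_0 : Ch :=
  ⟨10, 159,
    [(242, 10), (404, 20), (458, 40), (476, 40), (482, 40), (484, 10), (566, 20), (620, 40), (638, 40), (644, 20), (674, 40), (692, 20), (944, 20), (962, 40), (968, 20), (1106, 20), (1124, 40), (1130, 40), (1132, 20), (1160, 40), (1178, 40), (1184, 40), (1186, 40), (1196, 40), (1202, 40), (1204, 40), (1208, 20), (1210, 10), (1268, 20), (1286, 40), (1292, 40), (1294, 40), (1322, 40), (1340, 40), (1346, 40), (1348, 40), (1358, 40), (1364, 40), (1366, 20), (1370, 40), (1394, 40), (1400, 40)],
    [(1370, 0), (10940, 0), (99240, 0), (987180, 0), (10559420, 0), (119953540, 0), (1434668260, 0), (17949908220, 0), (233760065820, 0), (3155848761220, 0), (44018308085860, 0), (632518150969140, 0), (9340214439295220, 3484800), (141431837271861340, 465470720), (2191930583873759180, 37635567840), (34712379092634697380, 2383191811440), (560922037079939869860, 128398161660240), (9237333063169110472180, 6099360050388400), (154865340620487712921180, 260824249469329400), (2640731775266096865418540, 10193532175155942200), (45762140450824678181683940, 368517964586128888440), (805360150821509703772598340, 12444620926583323882600), (14384538724507855145133769260, 395586158719822975793480), (260594669762128661726396968060,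 11906188741484568455113360), (4785800634036796891774530532260, 340668046549602946424872840), (89048490614066784440404654342460, 9286607168154636249115706160), (1677829655456909388954651571333820, 241174754539194820899755926880), (31995211574943180174495662229799940, 5948753520511723299472421805040), (617167239743133874286349638918957020, 138255416831374228844591126922480), (12035515250297140217489748522403881300, 2975080094984094207108373706616120), (237155235260907625820197861840495077980, 56909762146927847929420274554044240), (4719216303650474292943481203683962951100, 857564084539165723629100135162364400), (94785486153081499566098341513108974558900, 4400249483372594757541069221148424040)]⟩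

theorem c10_1_10_0_ok : okB 6 true true c10_1_10_0 = true := by
  decide +kernel

end Vale.Agent.P348.K
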