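import Vale.Agent.P348.C.MB1

namespace Vale.Agent.P348.K

def c10_1_10_6 : Ch :=
  ⟨10, 159,
    [(9868, 20), (9896, 20), (9898, 40), (9902, 20), (9904, 40), (9916, 20), (9922, 10), (10004, 10), (10006, 40), (10010, 40), (10012, 40), (10024, 40), (10028, 20), (10030, 20), (10060, 20), (10066, 40), (10334, 20), (10336, 20), (10346, 20), (10348, 40), (10352, 40), (10384, 40), (10388, 20), (10390, 20), (10402, 40), (10406, 10), (10492, 10), (10498, 20), (10510, 20), (11356, 20), (11360, 20), (11374, 10), (11468, 10), (11482, 20), (11486, 20), (11518, 20), (14762, 2), (29524, 1)],
    [(883, 1), (11190, 10), (155320, 120), (2308860, 1620), (36259220, 24040), (595944540, 386420), (10179948140, 6663920), (179767779980, 122434540), (3267777411500, 2382190280), (60933595992740, 48793851620), (1162169911870220, 1042342090200), (22616825258126500, 22841746210220), (448164254018739380, 500942601892640), (9026166225258252020, 10636355196646980), (184478774009232644020, 208176368391163240), (3820891197653159433220, 3383078071168646460), (80098534627913369033260, 28264279724137401800), (1697657769270102984599860, -971480690237499046100), (36342487230045332755834940, -72392708088795966009840), (785115996952478119868391900, -3140583537775066884575220), (17102535695754733974849418260, -114191268698098171689865560), (375387775721353944253177287980, -3785519394780617982059355500),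 (8296732025122613596901712068420, -118350115337272382473264488280), (184536182168153367049118538553100, -3550430539455990923820103948900), (4128259169526626137664274647513860, -103254849320265414780223388195800), (92842687274374686801707229203181780, -2930579586489265564164298355278940), (2098104546145230268970544460841116740, -81550906055753023401624549238899520), (47623994223373009956223734088208171340, -2232619722874290686288702985576730780), (1085375667705284095709147006030672441460, -60288666390048710474608795152628117480), (24827932078750073608115857011237708977060, -1609057212513508475100982393525492891260), (569863621199138231356476154887700111714500, -42513482894824143863607351129136358603640), (13120394815571431185256424297657481498263060, -1113462608494837575632489980493091266639940), (302938905447974885429218553538093374092944260, -28939668784138809677753744967817320199809480)]⟩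

theorem c10_1_10_6_ok : okB 6 true true c10_1_10_6 = true := by
  decide +kernel

end Vale.Agent.P348.K
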