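import Vale.Agent.P348.C.MB2

namespace Vale.Agent.P348.K

def c10_1_9_5 : Ch :=
  ⟨9, 149,
    [(4799, 20), (4811, 20), (4883, 10), (4895, 20), (4901, 20), (4907, 20), (4919, 20), (4955, 20), (4973, 20), (5201, 20), (5207, 20), (5219, 20), (5225, 20), (5243, 20), (5279, 20), (5381, 20), (5387, 20), (7397, 10), (7415, 20), (7421, 20), (7423, 20), (7433, 20), (7439, 20), (7441, 10), (7445, 20), (7469, 20), (7475, 20), (7487, 20), (7493, 10), (7577, 20), (7583, 20), (7585, 20), (7595, 20), (7601, 20), (7603, 20), (7607, 20), (7609, 20), (7631, 20), (7637, 20), (7639, 20), (7649, 20), (7655, 20), (7657, 20), (7661, 20), (7663, 20), (7673, 20), (7675, 20), (7679, 20), (7681, 10), (7709, 20), (7711, 20), (7715, 20), (7717, 10), (7727, 20), (7729, 20), (7733, 20), (7811, 20), (7817, 20), (7819, 20), (7823, 20), (7835, 20), (7837, 10), (7841, 20)],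
    [(1190, 0), (14200, 0), (185320, 0), (2586680, 0), (38099860, 0), (586760660, 0), (9384458240, 0), (155061238980, 0), (2636018501420, 0), (45950483746380, 0), (819082610787560, 0), (14895528691898280, 0), (275817557228585900, 0), (5191514077927856300, 0), (99183233204480033680, 0), (1920879058479438693640, 0), (37669528520156100217420, 0), (747263912045436993157620, 0), (14981744974760057439600080, 0), (303322703248751657879638740, 0), (6197038026149787294993742400, 0), (127676574671933601246420491780, 0), (2651074889654720013322131762940, 0), (55446502122269527587225029277320, 0), (1167467130058210925659047811362260, 0), (24735900387022644692967311263514360, 0), (527148597719783023683367086524679040, 0), (11294953336088762892081154700356233500, 0), (243230756001472821948233140607307708360, 0), (5262396559695547134040360965510539038820, 0), (114350715975183652869705701562712226628740, 0)]⟩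

theorem c10_1_9_5_ok : okB 6 true false c10_1_9_5 = true := by
  decide +kernel

end Vale.Agent.P348.K
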