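import Vale.Agent.P348.C.MB3

namespace Vale.Agent.P348.K

def c10_0_8_0 : Ch :=
  ⟨8, 80,
    [(80, 10), (134, 20), (152, 20), (158, 20), (160, 10), (188, 20), (206, 20), (212, 10), (224, 10), (296, 20), (314, 20), (320, 20), (322, 20), (350, 20), (368, 20), (374, 20), (376, 20), (386, 20), (392, 20), (394, 20), (398, 20), (400, 10), (422, 20), (428, 20), (430, 20), (440, 20), (446, 20), (448, 10), (452, 20), (464, 20), (470, 20), (512, 20), (530, 20), (536, 20), (548, 20), (554, 20), (560, 10), (584, 20), (590, 20), (602, 20), (608, 10), (656, 10), (782, 20), (800, 20), (806, 20), (808, 20), (836, 20), (854, 20), (860, 20), (862, 20), (872, 20), (878, 20), (880, 20), (884, 20), (886, 20), (908, 20), (914, 20), (916, 20), (926, 20), (932, 20), (934, 20), (938, 20), (940, 20), (950, 20), (952, 20), (956, 20), (958, 20), (964, 10), (998, 20), (1016, 20), (1022, 20), (1024, 20), (1034, 20), (1040, 20), (1042, 20), (1046, 20), (1048, 20), (1070, 20), (1076, 20), (1078, 20), (1088, 20), (1094, 20), (1096, 20), (1100, 20), (1102, 20), (1112, 20), (1114, 20), (1118, 20), (1120, 10), (1142, 20), (1148, 20),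 (1150, 20), (1154, 20), (1156, 10), (1166, 20), (1168, 20), (1172, 20), (1190, 20), (1232, 20), (1238, 20), (1240, 20), (1250, 20), (1256, 20), (1258, 20), (1262, 20), (1274, 20), (1276, 10), (1280, 20), (1304, 20), (1310, 20), (1312, 10), (1316, 20), (1328, 20), (1334, 20), (1352, 20), (1382, 20), (1388, 20), (1406, 20), (1484, 10), (1502, 20), (1508, 20), (1520, 20), (1526, 20), (1532, 20), (1556, 20), (1562, 20), (1574, 20), (1580, 20), (1586, 20), (1598, 20), (1604, 10), (1628, 20), (1634, 20), (1640, 10), (1652, 20), (1718, 20), (1724, 20), (1736, 20), (1742, 20), (1760, 10), (1790, 20), (1796, 10), (1952, 5), (2294, 20), (2312, 20), (2318, 20), (2320, 20), (2330, 20), (2336, 20), (2338, 10), (2342, 20), (2366, 20), (2372, 20), (2384, 20), (2390, 10), (2456, 10), (2474, 20), (2480, 20), (2482, 20), (2492, 20), (2498, 20), (2500, 20), (2504, 20), (2506, 20), (2528, 20), (2534, 20), (2536, 20), (2546, 20), (2552, 20), (2554, 20), (2558, 20), (2560, 20), (2570, 20), (2572, 20), (2576, 20), (2578, 20), (2584, 20), (2600, 20), (2606, 20), (2608, 20), (2612, 20), (2614, 20), (2624, 20), (2626, 20), (2630,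 20), (2632, 20)],
    [(3485, 0), (32620, 0), (343960, 0), (3957700, 0), (48787140, 0), (636492860, 0), (8711723620, 0), (124271553400, 0), (1838058747120, 0), (28071766057800, 0), (441187779667680, 0), (7115045792974620, 0), (117454490898882900, 0), (1980510040482036060, 0), (34047884546810415200, 0), (595787049986033911800, 0), (10595930324900007268940, 0)]⟩

theorem c10_0_8_0_ok : okB 6 false false c10_0_8_0 = true := by
  decide +kernel

def c7_1_4_0 : Ch :=
  ⟨4, 160,
    [(8, 7), (14, 14), (16, 7), (20, 7), (32, 14), (34, 14), (38, 14), (40, 7), (56, 7), (86, 14), (92, 14), (94, 14), (100, 7), (110, 7), (112, 7), (274, 7)],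
    [(161, 0), (1015, 0), (7539, 0), (62041, 0), (549423, 0), (5144545, 0), (50338743, 0), (510523405, 0), (5334813631, 0), (57187894855, 0), (626771974899, 0), (7004630434277, 0), (79652203845375, 0), (919956555196693, 0), (10775149261296119, 0), (127812932022762931, 0), (1533523818706850943, 0), (18590280600994737425, 0), (227465405419608367557, 0), (2806514219951526345765, 0), (34886845457912514785243, 0), (436565013673301542380967, 0), (5495513900175063657633811, 0), (69542060385831363179383961, 0), (884100665060302133808843199, 0), (11285791693988996866431776845, 0), (144585411753663007549395758407, 0), (1858181733732449627002265034865, 0), (23947142463401344241901993884871, 0), (309364973326627648646001149429821, 0), (4005054415608106168261148467394913, 0), (51945680693286005001068674782752581, 0), (674826928550685964314115575516794943, 0), (8779064094113905011969772216855059485, 0), (114350754773893311898785393503769094283, 0), (1491066108052158726766986817260866754185, 0), (19460883204583092822682388483630951175453, 0)]⟩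

theorem c7_1_4_0_ok : okB 3 false false c7_1_4_0 = true := by
  decide +kernel

end Vale.Agent.P348.K
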