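import Vale.Agent.P348.C.MC0

namespace Vale.Agent.P348.K

def c10_0_10_4 : Ch :=
  ⟨10, 159,
    [(7916, 20), (8168, 40), (8204, 20), (8222, 40), (8228, 10), (8330, 40), (8366, 20), (8384, 20), (9140, 20), (9194, 40), (9196, 10), (9302, 20), (9356, 20), (9680, 10), (9842, 20), (9844, 20), (9848, 20), (9850, 20), (9860, 20), (9862, 40), (9868, 20), (9896, 20), (9898, 40), (9902, 20), (9904, 40), (9916, 20), (9922, 10), (10004, 10), (10006, 40), (10010, 40), (10012, 40), (10024, 40), (10028, 20), (10030, 20), (10060, 20), (10066, 40), (10334, 20), (10336, 20), (10346, 20), (10348, 40), (10352, 40), (10384, 40), (10388, 20), (10390, 20), (10402, 40), (10406, 10), (10492, 10), (10498, 20), (10510, 20), (11356, 20), (11360, 20), (11374, 10), (11468, 10), (11482, 20), (11486, 20), (11518, 20), (14762, 2), (29524, 1)],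
    [(1353, 1), (17010, 10), (234480, 140), (3462060, 2260), (53988100, 40280), (880696940, 771700), (14923254740, 15612040), (261257073580, 329392380), (4705338017300, 7182194120), (86883614564820, 160728828420), (1640140033402700, 3675647868680), (31578808473391700, 85786289108900), (618896251345461260, 2046062243827840), (12325645847959245860, 49990901601391060), (249078041067859623940, 1253253382383344240), (5100839181508723476900, 32217376872721091260), (105740600416589168632660, 846532677368088753840), (2216686633174146313993660, 22619533774959064208180), (46950802290801657705308740, 611089848113526440905360), (1003944044270176813013677180, 16602523970398182371018140), (21656446246441484304389530140, 451635551224810888615774760), (470962829892074798906890412940, 12261595491028147480386826020), (10319100869812236752163786994020, 331519113461812039527849443320), (227670877431941436125606884578100, 8914499457224409907868358236620), (5055410636551036486696452578266980, 238235184964712297769647304459600), (112921903893848602269537528264260340, 6325813084835057108022143186816100), (2536163808870408836961667537619838700, 166891055854410260508633630407258560), (57249571616724645446802387254678362300, 4375610474146320450731712712090493900), (1298357899124002995688959883295862512940, 114041195540965460924765736689488418560),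 (29572452844868451038971959016669129706860, 2955667164854386835778170356942514207700), (676247763429462283115026526857866258418820, 76205000389808518837806020374254539638280), (15520845686191450148966645734173961690859420, 1955286740705484267542747924030418911233540), (357430364852888394824256901775018582074229260, 49945585610198479010085697164347091982604680)]⟩

theorem c10_0_10_4_ok : okB 6 false true c10_0_10_4 = true := by
  decide +kernel

end Vale.Agent.P348.K
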