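import Vale.Agent.P348.C.MC1

namespace Vale.Agent.P348.K

def c10_1_10_5 : Ch :=
  ⟨10, 159,
    [(5450, 40), (5462, 20), (5468, 20), (5516, 20), (5612, 10), (5624, 20), (7502, 10), (7664, 20), (7682, 40), (7684, 20), (7718, 40), (7736, 40), (7738, 40), (7742, 20), (7744, 10), (7826, 20), (7844, 40), (7846, 40), (7880, 40), (7898, 40), (7900, 20), (7904, 40), (7916, 20), (8168, 40), (8204, 20), (8222, 40), (8228, 10), (8330, 40), (8366, 20), (8384, 20), (9140, 20), (9194, 40), (9196, 10), (9302, 20), (9356, 20), (9680, 10), (9842, 20), (9844, 20), (9848, 20), (9850, 20), (9860, 20), (9862, 40)],
    [(1080, 0), (12900, 0), (168820, 20), (2364880, 640), (34978960, 16360), (541226520, 391880), (8700864840, 9197520), (144567798880, 215043520), (2472187607880, 5042004920), (43360852762400, 118842789280), (777813058712360, 2817110045600), (14235133211191160, 67105724000240), (265252173052088400, 1604110667951520), (5023372548375186880, 38416876544069960), (96538973296102902560, 920307168523312320), (1880180496896463289880, 22022183851278040440), (37066196951615141511520, 525787654561710332800), (738911493652086854065000, 12514153826418676276520), (14881617690324379214476360, 296723467259509841710640), (302554866926354822604236240, 7005829792823123785463200), (6205067578713124658198104640, 164657562119669582973140440), (128293041083873287617087929000,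 3851372982661717071350725480), (2672568856362990037359970981200, 89636043053800085522002493160), (56066597913504212549378587072960, 2075461907404256269846538068360), (1183944183210590109708474820810120, 47801612721608105354564089612000), (25155404631991142611678027137187200, 1094927978742097013549635944822760), (537579192294871610802237454854592400, 24936913034097373904500859341984280), (11550938135503466806244828674218033320, 564524170347997699729968215418081840), (249471612839211102371467245801352801440, 12697913593061234892052096300972482520), (5414155848813333526830537835188857516800, 283638092979702652341356006749422837080), (118040958458526102023308956476054706334120, 6287510017993614488377454408426758447040), (2584773384051445852477867480828512581390240, 138189965325540613632496432789284654992360), (56833345248898253553839184628396267951003080, 3007636521103263417202857381431829582282520)]⟩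

theorem c10_1_10_5_ok : okB 6 true true c10_1_10_5 = true := by
  decide +kernel

end Vale.Agent.P348.K
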