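import Vale.Agent.P348.C.MC2

namespace Vale.Agent.P348.K

def c10_1_9_4 : Ch :=
  ⟨9, 149,
    [(3575, 20), (3593, 20), (3695, 20), (3697, 20), (3707, 20), (3713, 20), (3715, 20), (3719, 20), (3743, 20), (3749, 20), (3751, 20), (3761, 20), (3767, 20), (3769, 20), (3773, 20), (3785, 20), (3787, 20), (3791, 20), (3815, 20), (3821, 20), (3823, 20), (3827, 20), (3839, 20), (3845, 20), (3863, 20), (3905, 20), (3911, 10), (3923, 20), (3929, 20), (3931, 20), (3935, 20), (3947, 20), (3953, 20), (3983, 20), (3989, 20), (4001, 20), (4007, 20), (4025, 20), (4061, 20), (4079, 10), (4151, 20), (4163, 20), (4169, 20), (4187, 20), (4223, 20), (4553, 20), (4559, 20), (4571, 20), (4577, 10), (4661, 20), (4667, 20), (4679, 20), (4685, 20), (4691, 20), (4715, 20), (4721, 20), (4733, 20), (4739, 20), (4745, 20), (4757, 20), (4763, 20), (4787, 20), (4793, 20)],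
    [(1230, 0), (14240, 0), (178620, 0), (2386380, 0), (33588820, 0), (494266440, 0), (7560345480, 0), (119668145460, 0), (1952919165220, 0), (32759580709200, 0), (563405269460740, 0), (9912133101144400, 0), (178046935360666040, 0), (3259707825811849100, 0), (60734436933782165880, 0), (1150017511046102378880, 0), (22102561984552601479380, 0), (430676700561931741560860, 0), (8499090530692366295597000, 0), (169700273797951172455875780, 0), (3425228973031755160858433280, 0), (69828077615839131820480279140, 0), (1436701981171592400764135796360, 0), (29811695338743850118657407781420, 0), (623448167789168524540486281300880, 0), (13132270013612764926538084124281940, 0), (278456686628070066057463225926220640, 0), (5940539608775436933299567934756059160, 0), (127448509230642965171974094638254261820, 0), (2748473398616606053914471592839929162040, 0), (59555168417986492375626370089119176683700, 0)]⟩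

theorem c10_1_9_4_ok : okB 6 true false c10_1_9_4 = true := by
  decide +kernel

end Vale.Agent.P348.K
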