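import Vale.Agent.P348.C.MD0

namespace Vale.Agent.P348.K

def c10_0_10_2 : Ch :=
  ⟨10, 159,
    [(3388, 10), (3446, 20), (3452, 40), (3454, 40), (3464, 40), (3470, 40), (3472, 40), (3476, 40), (3478, 40), (3500, 40), (3506, 40), (3508, 40), (3518, 40), (3524, 40), (3526, 40), (3530, 40), (3532, 20), (3542, 40), (3544, 40), (3548, 40), (3572, 20), (3578, 20), (3580, 40), (3584, 20), (3598, 20), (3776, 40), (3788, 40), (3794, 40), (3796, 40), (3800, 20), (3824, 20), (3830, 40), (3832, 40), (3842, 40), (3848, 40), (3850, 40), (3854, 40), (3866, 40), (3868, 20), (3872, 20), (3938, 40), (3940, 20), (3950, 40), (3956, 40), (3958, 40), (3962, 40), (3986, 20), (3992, 40), (3994, 40), (4004, 40), (4010, 40), (4012, 20), (4016, 40), (4028, 40), (4034, 40), (4058, 40), (4064, 40), (4070, 40)],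
    [(2030, 0), (22200, 0), (266200, 0), (3425120, 0), (46662080, 0), (666938960, 0), (9933649200, 2400), (153381006360, 180320), (2444951294440, 9058080), (40098254252320, 381199680), (674680392358760, 14463419920), (11618007477274080, 511608504160), (204320920769519240, 17206359035120), (3663052859765361600, 557672209926800), (66837253952928361360, 17586445494557360), (1239407760960349233760, 543169841539295480), (23327760043340721271320, 16498409617807017640), (445140656622102395268280, 493978024412949031280), (8602830350723112454181640, 14596174953111757382480), (168231191821320222754194000, 425863881597735351150840), (3326104938650597950795257360, 12272349427654199287642880), (66437108041823354043913383360, 349398603728443012427334440), (1339818920451133552692312191120, 9830926823660583219162925440), (27263909843349187291991125773040, 273486528849672894602529750680), (559513277490927268957687607579800, 7526186939920416466401202454040), (11574733381199467050877504965354040, 205008157206315751770657092707440), (241273536765786770401719695784062280, 5530973655957100630839100245845960), (5065766392376444476770932764329036520, 147893923710594353396800690975965320), (107095797910406978442470033636483293600, 3921926519938964037257451371961039120), (2279084814784633321909885232503187961760,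 103210263007530274603441145575900547040), (48807889517219542888815399844937768827520, 2697007931310575138362237411594147426440), (1051602078101628510484710117126696788721640, 70020337753148647243349868940323708166040), (22789926505185194178142081916550903436725000, 1807088361573163276727134019595888724318640)]⟩

theorem c10_0_10_2_ok : okB 6 false true c10_0_10_2 = true := by
  decide +kernel

end Vale.Agent.P348.K
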