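import Vale.Agent.P348.C.MD1

namespace Vale.Agent.P348.K

def c10_1_10_3 : Ch :=
  ⟨10, 159,
    [(3506, 40), (3508, 40), (3518, 40), (3524, 40), (3526, 40), (3530, 40), (3532, 20), (3542, 40), (3544, 40), (3548, 40), (3572, 20), (3578, 20), (3580, 40), (3584, 20), (3598, 20), (3776, 40), (3788, 40), (3794, 40), (3796, 40), (3800, 20), (3824, 20), (3830, 40), (3832, 40), (3842, 40), (3848, 40), (3850, 40), (3854, 40), (3866, 40), (3868, 20), (3872, 20), (3938, 40), (3940, 20), (3950, 40), (3956, 40), (3958, 40), (3962, 40), (3986, 20), (3992, 40), (3994, 40), (4004, 40), (4010, 40), (4012, 20)],
    [(1440, 0), (15640, 0), (186320, 0), (2382040, 0), (32247040, 0), (458046320, 0), (6781128480, 2400), (104095810640, 180320), (1650131760760, 8856480), (26920942129080, 360313920), (450726207039320, 13176733120), (7725516263072520, 450028122000), (135273774148745440, 14638405786720), (2415244517998899400, 458072591075040), (43898637899259074160, 13861322812165680), (811037595675710388760, 406802112285295080), (15210873036020287116800, 11603308364539703000), (289248469963231919604800, 322257446076547312000), (5570871879429496116368440, 8730051759144975342320), (108564392221877989340775240, 231079802470446591160600), (2138857677649619205863708320, 5985789942693085596471440), (42565921702404857885647575000, 151948408991017500746397200),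 (855100539358297535462313830160, 3784267368590995846957421360), (17328754853238547965566028697200, 92544158926621617759615970960), (354046625066238988926415210900520, 2223425449757569357797163302880), (7289025496079310938471757673232520, 52487472191111925678533564763000), (151143655249792679044616371952182760, 1217003607573520780331888501665760), (3155277069449828322962854253639358760, 27688851412189333359301767926060720), (66289665975192810536537002544225280040, 617018264551912290441440594836086520), (1401084754215164500405573813570419959080, 13425398456871957295149586599289525200), (29782196290247457395228149843435081235080, 283774736410840928756837456920170846880), (636500191689598609112082413849536804817680, 5776758933043421568844462544509798725480), (13673394592916835383667611605440885276349520, 111501441714692055169727455342300528641280)]⟩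

theorem c10_1_10_3_ok : okB 6 true true c10_1_10_3 = true := by
  decide +kernel

end Vale.Agent.P348.K
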