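import Vale.Agent.P348.C.MD2

namespace Vale.Agent.P348.K

def c10_1_9_2 : Ch :=
  ⟨9, 149,
    [(2563, 20), (2573, 20), (2579, 20), (2581, 20), (2585, 20), (2587, 20), (2609, 20), (2615, 20), (2617, 20), (2627, 20), (2633, 20), (2635, 20), (2639, 20), (2641, 20), (2651, 20), (2653, 20), (2657, 20), (2659, 20), (2665, 20), (2699, 20), (2717, 20), (2723, 20), (2725, 20), (2735, 20), (2741, 20), (2743, 20), (2747, 20), (2749, 20), (2771, 20), (2777, 20), (2779, 20), (2789, 20), (2795, 20), (2797, 20), (2801, 20), (2803, 20), (2813, 20), (2815, 20), (2819, 20), (2821, 20), (2827, 20), (2843, 20), (2849, 20), (2851, 20), (2855, 20), (2857, 20), (2867, 20), (2869, 20), (2873, 20), (2875, 20), (2891, 20), (2893, 20), (2969, 20), (2987, 20), (3023, 20), (3041, 20), (3047, 20), (3049, 20), (3059, 20), (3065, 20), (3067, 20), (3071, 20), (3073, 20)],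
    [(1260, 0), (13020, 0), (148760, 0), (1831760, 0), (23942640, 0), (328780340, 0), (4707214720, 0), (69854634700, 0), (1069473258840, 0), (16828322429720, 0), (271301441914200, 0), (4469679660230720, 0), (75087714329884920, 0), (1283904456001930140, 0), (22309629023188114520, 0), (393434761309129919340, 0), (7033678677202660307520, 0), (127350510265678068430680, 0), (2333272076465759649304120, 0), (43227961211125786593706060, 0), (809336524636548274670109280, 0), (15304685545959574025806023020, 0), (292177097612928640900535261000, 0), (5628785520339163970719195496060, 0), (109388205344787554856312869834160, 0), (2143731218687895870290163896654960, 0), (42352961265182590255908029399503520, 0), (843315688038751665405153812625939400, 0), (16919050941664199818593459489101228240, 0), (341926381084437069258890874301123699120, 0), (6959121963667799739173093670624416298000, 0)]⟩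

theorem c10_1_9_2_ok : okB 6 true false c10_1_9_2 = true := by
  decide +kernel

end Vale.Agent.P348.K
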