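import Vale.Agent.P348.ChunkDefs

namespace Vale.Agent.P348.K

def c10_1_6_0 : Ch :=
  ⟨6, 80,
    [(26, 10), (44, 20), (50, 20), (52, 10), (62, 20), (68, 10), (98, 20), (104, 20), (106, 20), (116, 20), (122, 20), (124, 20), (128, 20), (130, 10), (140, 20), (142, 10), (146, 20), (170, 20), (176, 20), (182, 10), (194, 10), (260, 20), (266, 20), (268, 20), (278, 20), (284, 20), (286, 20), (290, 20), (292, 20), (302, 20), (304, 20), (308, 20), (310, 20), (316, 10), (332, 20), (338, 20), (340, 20), (344, 20), (346, 20), (356, 20), (358, 20), (362, 20), (364, 10), (380, 20), (410, 20), (412, 10), (416, 20), (434, 20), (494, 20), (500, 20), (506, 20), (518, 20), (524, 10), (572, 10), (746, 20), (752, 10), (764, 20), (770, 20), (772, 20), (776, 20), (778, 20), (788, 20), (790, 20), (794, 20), (796, 20), (802, 20), (818, 20), (824, 20), (826, 20), (830, 20), (832, 20), (842, 20), (844, 20), (848, 20), (850, 20), (856, 20), (866, 20), (868, 20), (874, 10), (896, 20), (898, 20), (902, 20), (904, 20), (910, 10), (920, 20), (922, 20), (980, 10), (986, 20), (988, 20), (992,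 20), (994, 20), (1004, 20), (1006, 20), (1010, 20), (1012, 20), (1028, 20), (1030, 10), (1058, 20), (1060, 20), (1064, 20), (1066, 10), (1082, 20), (1136, 20), (1220, 10), (1222, 10), (1226, 20), (1244, 20), (1298, 10), (1478, 10), (1490, 20), (1496, 20), (1514, 10), (1544, 20), (1550, 10), (2276, 10), (2282, 20), (2284, 20), (2288, 20), (2290, 20), (2300, 20), (2302, 20), (2306, 20), (2308, 10), (2324, 20), (2354, 20), (2360, 10), (2444, 20), (2446, 10), (2450, 10), (2462, 20), (2464, 20), (2468, 20), (2470, 20), (2476, 20), (2486, 20), (2488, 20), (2494, 20), (2516, 20), (2518, 20), (2522, 20), (2524, 20), (2530, 20), (2540, 20), (2542, 20), (2548, 10), (2596, 20), (2684, 10), (2686, 20), (2692, 10), (2702, 10), (2704, 20), (2758, 20), (2954, 20), (2956, 10), (2972, 10), (3008, 20), (3010, 20), (3026, 10), (3028, 10), (3172, 5), (7382, 10), (7384, 10), (7402, 10), (7564, 5)],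
    [(2850, 0), (25620, 0), (260470, 0), (2889690, 0), (34291450, 0), (429598470, 0), (5628717010, 0), (76588225630, 0), (1076304052810, 0), (15553393078470, 0), (230295754947850, 0), (3483708186801470, 0), (53706568175807770, 0), (842060688627202470, 0), (13403640234914045690, 0), (216274612261399335570, 0), (3532800396558858439370, 0)]⟩

theorem c10_1_6_0_ok : okB 6 true false c10_1_6_0 = true := by
  decide +kernel

def c10_1_4_0 : Ch :=
  ⟨4, 80,
    [(8, 10), (14, 20), (16, 10), (20, 10), (32, 20), (34, 20), (38, 20), (40, 10), (56, 10), (86, 20), (88, 20), (92, 20), (94, 20), (100, 10), (110, 20), (112, 10), (164, 10), (248, 20), (250, 20), (254, 20), (256, 20), (262, 20), (272, 20), (274, 20), (280, 10), (326, 20), (328, 10), (488, 5), (740, 20), (742, 10), (758, 20), (760, 20), (766, 20), (784, 10), (812, 10), (814, 20), (820, 10), (976, 5), (2272, 10), (2278, 10), (2440, 5)],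
    [(615, 0), (4200, 0), (33210, 0), (288690, 0), (2690350, 0), (26466550, 0), (271989570, 0), (2898016030, 0), (31833531870, 0), (358920386970, 0), (4139272301930, 0), (48688827936890, 0), (582763540144690, 0), (7083569681663190, 0), (87291552947610790, 0), (1088965910467002670, 0), (13734702657754210910, 0)]⟩

theorem c10_1_4_0_ok : okB 6 true false c10_1_4_0 = true := by
  decide +kernel

end Vale.Agent.P348.K
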