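import Vale.Agent.P348.C.ME0

namespace Vale.Agent.P348.K

def c10_0_10_3 : Ch :=
  ⟨10, 159,
    [(4082, 40), (4088, 40), (4148, 10), (4154, 40), (4156, 20), (4172, 20), (4178, 40), (4196, 20), (4586, 20), (4598, 10), (4748, 40), (4760, 20), (4766, 40), (4802, 40), (4814, 40), (4820, 40), (4826, 40), (4910, 40), (4922, 20), (4928, 40), (4934, 20), (4964, 40), (4976, 40), (4982, 40), (4988, 20), (5000, 40), (5030, 20), (5036, 20), (5234, 40), (5252, 40), (5288, 40), (5300, 20), (5306, 40), (5324, 10), (5396, 40), (5414, 40), (5450, 40), (5462, 20), (5468, 20), (5516, 20), (5612, 10), (5624, 20), (7502, 10), (7664, 20), (7682, 40), (7684, 20), (7718, 40), (7736, 40), (7738, 40), (7742, 20), (7744, 10), (7826, 20), (7844, 40), (7846, 40), (7880, 40), (7898, 40), (7900, 20), (7904, 40)],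
    [(1740, 0), (21100, 0), (277200, 0), (3872060, 0), (56835420, 120), (869461660, 6600), (13777952020, 260200), (225099326740, 8976080), (3777383412020, 287854440), (64910074579140, 8811723840), (1139313742095500, 261112488160), (20382997180245380, 7551019591480), (371030659389610140, 214201251472480), (6861281561139452900, 5981798996737480), (128731129153810100700, 164904559517902400), (2447657979276403595500, 4497828081162990360), (47116917767748510961660, 121605083591214262040), (917458515270318583537580, 3263893189495003550160), (18057183291435067462225660, 87070030589374442591440), (358986094458433071323352260, 2310643098116496214272400), (7204655214345984029862517100, 61037902199646696545850440), (145891425828167885158875552860, 1605648720723144452978831800), (2979376761471119158790809100660, 42072729611206050629939845720), (61336615778690755561863484662980, 1098295882160692942985906516800), (1272480095778008598769028067844060, 28565881807294938728487283750000), (26593332399126641256694467373060580, 740307057081699671014033918391000), (559695904611723113883571960516078100, 19117596626588420218458340073554440), (11859522200045223919094185284416345060, 491964792562203727785819470827144680), (252932803955701604827856879715620800300, 12616555106993569512299431537381965160), (5428259601643197530767136730013565059580,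 322467864127432804337724087533982736240), (117201715256574336069037309887528758116060, 8215051152252295862760607506080893528120), (2545248347368014312887287257204774882216140, 208620752625008336927333445495574894834720), (55584985516509688617241511288886019119147300, 5281756327383679395611933347022375164091520)]⟩

theorem c10_0_10_3_ok : okB 6 false true c10_0_10_3 = true := by
  decide +kernel

end Vale.Agent.P348.K
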