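import Vale.Agent.P348.C.ME1

namespace Vale.Agent.P348.K

def c10_1_10_4 : Ch :=
  ⟨10, 159,
    [(4016, 40), (4028, 40), (4034, 40), (4058, 40), (4064, 40), (4070, 40), (4082, 40), (4088, 40), (4148, 10), (4154, 40), (4156, 20), (4172, 20), (4178, 40), (4196, 20), (4586, 20), (4598, 10), (4748, 40), (4760, 20), (4766, 40), (4802, 40), (4814, 40), (4820, 40), (4826, 40), (4910, 40), (4922, 20), (4928, 40), (4934, 20), (4964, 40), (4976, 40), (4982, 40), (4988, 20), (5000, 40), (5030, 20), (5036, 20), (5234, 40), (5252, 40), (5288, 40), (5300, 20), (5306, 40), (5324, 10), (5396, 40), (5414, 40)],
    [(1370, 0), (16780, 0), (221940, 0), (3117740, 0), (46002220, 0), (707230860, 0), (11260173380, 10800), (184785688780, 890400), (3113757313460, 46054960), (53710205247700, 1924797120), (945979791449220, 71160868240), (16976163371326580, 2429252364080), (309851208082455380, 78374663610800), (5743292666109568460, 2422591288982160), (107967708997415748940, 72357311093169400), (2056170812141941630940, 2100007892339247840), (39630271002803426132260, 59457124913814216560), (772360942575079733517220, 1647036864292478934720), (15209196614024720889657660, 44742440971385321694720), (302405737004162911828226740, 1194192539596225944663280), (6067488255700542043304759860, 31366173900266646035350720), (122780159061241164066988035020,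 811853873169139866337540800), (2504591457137725013017334046500, 20731935029219291600400422880), (51480754569214298851412729936220, 522871215365166573199846324280), (1065810529911689615645612329847780, 13035500327068968935172894088840), (22217005319722218117197560067271420, 321489427789477019177546715455600), (466141945520408947988455093692109020, 7848485064184761956472883275212240), (9841161013329619035773703370312209620, 189761280603524410246098882190884640), (209000966831800467867045350152262387300, 4545731551907075171373955876976125240), (4463863945052449927681068471104894939500, 107918310025367227367594476602933947880), (95858038335603277058138359395471585451620, 2539507109528066101242923873400020656120), (2069195745139818297231977119178679171080100, 59234880851433658385466813243357996921520), (44888588215738603474577989761658561851489380, 1369388380752384566532888649820034690279080)]⟩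

theorem c10_1_10_4_ok : okB 6 true true c10_1_10_4 = true := by
  decide +kernel

end Vale.Agent.P348.K
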