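import Vale.Agent.P348.C.ME2

namespace Vale.Agent.P348.K

def c10_1_9_3 : Ch :=
  ⟨9, 149,
    [(3095, 20), (3101, 20), (3103, 20), (3113, 20), (3119, 20), (3121, 20), (3125, 20), (3127, 20), (3137, 20), (3139, 20), (3143, 20), (3145, 20), (3185, 10), (3203, 20), (3209, 20), (3211, 20), (3221, 20), (3227, 20), (3229, 20), (3233, 20), (3235, 20), (3257, 20), (3263, 20), (3265, 20), (3275, 20), (3281, 20), (3283, 20), (3287, 20), (3289, 20), (3299, 20), (3301, 20), (3305, 20), (3307, 20), (3329, 20), (3335, 20), (3337, 20), (3341, 20), (3343, 20), (3353, 20), (3355, 20), (3359, 20), (3377, 20), (3419, 20), (3425, 20), (3427, 20), (3437, 20), (3443, 20), (3445, 20), (3449, 20), (3451, 20), (3461, 20), (3463, 20), (3467, 20), (3491, 20), (3497, 20), (3499, 20), (3503, 20), (3515, 20), (3517, 20), (3521, 20), (3539, 20), (3569, 20), (3571, 20)],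
    [(1250, 0), (13180, 0), (154520, 0), (1962980, 0), (26594560, 0), (380030200, 0), (5681309480, 0), (88299305280, 0), (1419659744200, 0), (23516847887560, 0), (400035280423060, 0), (6968407840668140, 0), (124011156649232260, 0), (2250102514107214380, 0), (41552676769327627000, 0), (779809404183219041440, 0), (14852113602505736442420, 0), (286736226079467400856900, 0), (5605462207944867781221380, 0), (110856734102943511794642220, 0), (2215959474741496491168683620, 0), (44737548971879644882085396960, 0), (911557904159961124783829183460, 0), (18733318604293259975155345838880, 0), (388063406899944241179502045806560, 0), (8098548204805552222186137694426120, 0), (170178581002978944438757201788031940, 0), (3599056187412908072686723866209593060, 0), (76571242522380467449839417551836706580, 0), (1638161895823722075576920643320898943360, 0), (35228575652585673633240748501552283077120, 0)]⟩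

theorem c10_1_9_3_ok : okB 6 true false c10_1_9_3 = true := by
  decide +kernel

end Vale.Agent.P348.K
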