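import Vale.Agent.P348.C.ME5

namespace Vale.Agent.P348.K

def c4_0_2_0 : Ch :=
  ⟨2, 73,
    [(2, 4), (4, 4), (10, 2)],
    [(10, 0), (36, 0), (164, 0), (828, 0), (4532, 0), (26436, 0), (162044, 0), (1031388, 0), (6749732, 0), (45066996, 0), (305213324, 0), (2087747148, 0), (14380439732, 0), (99533353956, 0), (691240226204, 0), (4811832306108, 0), (33551034430532, 0), (234208061903316, 0), (1636249538816684, 0), (11437867955060268, 0), (79986303184658132, 0)]⟩

theorem c4_0_2_0_ok : okB 0 false false c4_0_2_0 = true := by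
  decide +kernel

def c4_0_0_0 : Ch :=
  ⟨0, 73,
    [(0, 1)],
    [(1, 0), (0, 0), (0, 0), (0, 0), (0, 0), (0, 0), (0, 0), (0, 0), (0, 0), (0, 0), (0, 0), (0, 0), (0, 0), (0, 0), (0, 0), (0, 0), (0, 0), (0, 0), (0, 0), (0, 0), (0, 0)]⟩

theorem c4_0_0_0_ok : okB 0 false false c4_0_0_0 = true := by
  decide +kernel

def c4_1_4_0 : Ch :=
  ⟨4, 73,
    [(8, 4), (14, 8), (16, 4), (20, 2), (40, 1)],
    [(19, 1), (92, 4), (552, 32), (3776, 280), (28072, 2240), (220912, 16024), (1811352, 98912), (15311472, 451336), (132411592, 45440), (1164759728, -35381960), (10377066232, -633811168), (93334418544, -8476039832), (845476636456, -100701121216), (7699996963504, -1122491662184), (70412211594584, -12028761503776), (645895190986096, -125542222404920), (5939219405666696, -1286000175191296), (54717389029796016, -12993144418980872), (504873660112001976, -129911649453653344), (4664185012634843248, -1288391662554190808), (43132970874827047912, -12695152975240187200)]⟩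

theorem c4_1_4_0_ok : okB 0 true true c4_1_4_0 = true := by
  decide +kernel

def c4_1_2_0 : Ch :=
  ⟨2, 73,
    [(2, 4), (4, 4), (10, 2)],
    [(10, 0), (36, 0), (164, 0), (828, 0), (4404, 0), (24196, 0), (135932, 0), (775804, 0), (4477732, 0), (26052084, 0), (152448524, 0), (895809324, 0), (5280122676, 0), (31194532132, 0), (184624420508, 0), (1094245778908, 0), (6492941387332, 0), (38564421120852, 0), (229240144582700, 0), (1363665605900172, 0), (8117151727910484, 0)]⟩

theorem c4_1_2_0_ok : okB 0 true false c4_1_2_0 = true := by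
  decide +kernel

def c4_1_0_0 : Ch :=
  ⟨0, 73,
    [(0, 1)],
    [(1, 0), (0, 0), (0, 0), (0, 0), (0, 0), (0, 0), (0, 0), (0, 0), (0, 0), (0, 0), (0, 0), (0, 0), (0, 0), (0, 0), (0, 0), (0, 0), (0, 0), (0, 0), (0, 0), (0, 0), (0, 0)]⟩

theorem c4_1_0_0_ok : okB 0 true false c4_1_0_0 = true := by
  decide +kernel

def c4_1_3_0 : Ch :=
  ⟨3, 73,
    [(5, 8), (11, 4), (13, 4)],
    [(16, 0), (72, 0), (400, 0), (2496, 0), (16664, 0), (116112, 0), (832504, 0), (6087664, 0), (45136200, 0), (337979568, 0), (2549028760, 0), (19327423088, 0), (147141083912, 0), (1123750966384, 0), (8604243773336, 0), (66019201214256, 0), (507462801736200, 0), (3906718359150256, 0), (30117308230053400, 0), (232463903214984944, 0), (1796309322896809224, 0)]⟩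

theorem c4_1_3_0_ok : okB 0 true false c4_1_3_0 = true := by
  decide +kernel

def c4_1_1_0 : Ch :=
  ⟨1, 73,
    [(1, 4)],
    [(4, 0), (8, 0), (24, 0), (80, 0), (272, 0), (928, 0), (3168, 0), (10816, 0), (36928, 0), (126080, 0), (430464, 0), (1469696, 0), (5017856, 0), (17132032, 0), (58492416, 0), (199705600, 0), (681837568, 0), (2327939072, 0), (7948081152, 0), (27136446464, 0), (92649623552, 0)]⟩

theorem c4_1_1_0_ok : okB 0 true false c4_1_1_0 = true := by
  decide +kernel

end Vale.Agent.P348.K
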