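import Vale.Agent.P348.ChunkDefs

namespace Vale.Agent.P348.K

def c10_0_10_0 : Ch :=
  ⟨10, 159,
    [(242, 10), (404, 20), (458, 40), (476, 40), (482, 40), (484, 10), (566, 20), (620, 40), (638, 40), (644, 20), (674, 40), (692, 20), (944, 20), (962, 40), (968, 20), (1106, 20), (1124, 40), (1130, 40), (1132, 20), (1160, 40), (1178, 40), (1184, 40), (1186, 40), (1196, 40), (1202, 40), (1204, 40), (1208, 20), (1210, 10), (1268, 20), (1286, 40), (1292, 40), (1294, 40), (1322, 40), (1340, 40), (1346, 40), (1348, 40), (1358, 40), (1364, 40), (1366, 20), (1370, 40), (1394, 40), (1400, 40), (1402, 20), (1412, 40), (1418, 40), (1424, 40), (1436, 20), (1610, 40), (1616, 40), (1646, 20), (1664, 40), (1670, 40), (1682, 40), (1688, 40), (1694, 10), (1772, 40), (1778, 40), (1808, 20)],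
    [(1900, 0), (16280, 0), (157820, 0), (1672500, 0), (18998380, 0), (228352380, 0), (2877700300, 0), (37762284460, 0), (513271574060, 0), (7196214111300, 0), (103725458094500, 0), (1532956077665820, 0), (23179260609935220, 16552800), (357962998124982700, 2379016640), (5638141946670339860, 197634388640), (90469967938062639020, 12439766668720), (1477586358904341782020, 659876996631480), (24545366950444105207420, 31185025441341480), (414480527935273588743020, 1356229857106668800), (7111354475807196075619700, 55357681632828788040), (123920025795097014034885380, 2146783826329732413200), (2192390772483447025331003020, 79719649243932993863400), (39367310213848510612915629620, 2849854589732578279310320), (717211054672616821616628154340, 98463182995760171600342120), (13252396454536703700201477659580, 3298401394287188380371201000), (248259628739142533378274642576660, 107425418939181841154198239520), (4712943808003357716744536023222420, 3410024763165343283573246621560), (90624271371782615359933956444032980, 105738983278318174812959815959280), (1764156369389019710930554479223267460, 3209518554844489708502391837435200), (34747968141177359284804084363827875060, 95542728468430791139491938590562120), (692102307459427496484184419114010454460, 2794241103112743315878369031568097080),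 (13931641627497296450990745970630315756900, 80413226437914340495196973408574967000), (283247778534390171771663788774040259613020, 2280419842164060484990506377499736155160)]⟩

theorem c10_0_10_0_ok : okB 6 false true c10_0_10_0 = true := by
  decide +kernel

end Vale.Agent.P348.K
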