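import Vale.Agent.P348.C.MF0

namespace Vale.Agent.P348.K

def c10_0_10_1 : Ch :=
  ⟨10, 159,
    [(1826, 40), (1832, 40), (1844, 40), (1850, 20), (1880, 40), (1886, 20), (1898, 40), (1970, 20), (1988, 40), (2006, 20), (2042, 20), (2420, 10), (2582, 20), (2588, 40), (2636, 40), (2642, 40), (2644, 20), (2654, 40), (2660, 40), (2662, 20), (2744, 20), (2750, 40), (2798, 40), (2804, 40), (2806, 40), (2816, 40), (2822, 40), (2824, 40), (2828, 20), (2830, 20), (2852, 40), (2858, 40), (2860, 40), (2870, 40), (2876, 40), (2878, 40), (3122, 20), (3128, 40), (3140, 40), (3146, 20), (3284, 20), (3290, 40), (3292, 20), (3302, 40), (3308, 40), (3310, 40), (3314, 20), (3316, 20), (3338, 40), (3344, 40), (3346, 40), (3356, 40), (3362, 40), (3364, 40), (3368, 40), (3370, 40), (3380, 20), (3382, 40)],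
    [(1930, 0), (19400, 0), (215460, 0), (2579500, 0), (32800320, 0), (438520900, 0), (6118630160, 0), (88598298180, 0), (1325554129760, 880), (20419938719500, 81280), (322977322215200, 6690280), (5232979000519780, 460802360), (86687645571960480, 33899648080), (1465900106257260460, 2445346940840), (25269999790988108000, 154385718016320), (443566645566091151060, 8388911034899040), (7920097867822315469840, 400389562770734040), (143726525918564105214340, 17202436305711749040), (2648709143739288314747720, 679222484595943452320), (49534622665374045383635100, 25047660442202399209200), (939441002915995213267308760, 873494209663942884252800), (18056843697810041841475985700, 29085349567898312961982600), (351531308486213583764616373880, 931719914512207394074164160), (6927615897667299795898297546380, 28886250968805043803367230360), (138120032729231958195464663473840, 870921108253053323631068365760), (2784483817175131817501466499373620, 25635715636108574018558575279640), (56730430045073880834169390553658400, 739071634363961898430845300600040), (1167468246885055281107372338821852060, 20924792101977189892932606071961680), (24255612849887045251058595280854866440, 583097110095134508603557163369705160), (508516158402785593751960429220817680940, 16023116307376636533855793626935437280), (10752679954669647763746470304310413943280,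 434889425878572519681806937606401884000), (229218442132464533840621405071419125442020, 11674444384296898067840627151297345591440), (4923934007339318956250884527342901872481000, 310339168959928930303828585830490916422960)]⟩

theorem c10_0_10_1_ok : okB 6 false true c10_0_10_1 = true := by
  decide +kernel

end Vale.Agent.P348.K
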