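import Vale.Agent.P348.C.MF1

namespace Vale.Agent.P348.K

def c10_1_10_2 : Ch :=
  ⟨10, 159,
    [(2822, 40), (2824, 40), (2828, 20), (2830, 20), (2852, 40), (2858, 40), (2860, 40), (2870, 40), (2876, 40), (2878, 40), (3122, 20), (3128, 40), (3140, 40), (3146, 20), (3284, 20), (3290, 40), (3292, 20), (3302, 40), (3308, 40), (3310, 40), (3314, 20), (3316, 20), (3338, 40), (3344, 40), (3346, 40), (3356, 40), (3362, 40), (3364, 40), (3368, 40), (3370, 40), (3380, 20), (3382, 40), (3388, 10), (3446, 20), (3452, 40), (3454, 40), (3464, 40), (3470, 40), (3472, 40), (3476, 40), (3478, 40), (3500, 40)],
    [(1450, 0), (14980, 0), (171400, 0), (2116900, 0), (27797080, 0), (384090260, 0), (5542832400, 0), (83060524820, 0), (1286628035800, 880), (20526780135500, 81280), (336277342612320, 8789080), (5642869781003380, 738525080), (96786019484558160, 36774484560), (1693757460197472380, 882101700120), (30195029533105148160, -22664863265840), (547605916994003425660, -3839710818024560), (10090658764067452631120, -259836695008660600), (188718977512740641304740, -13253625801861155760), (3578730636137101801192400, -577369738692574113800), (68749978080868547056176020, -22627402528268495322760), (1336884380625883111438307080, -820700262818263677467520), (26294890722928432443584334260, -28043364934549522251011640), (522770802916467283628368642560,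 -913801587876870710091392720), (10498927601978274580947593459140, -28646177946666831620222969280), (212875739353793546547093111007240, -869649377116884176429225811600), (4355415273157217316479841889189020, -25698404693198451200064411350040), (89876952446621590656431721394928320, -742184635861487601140272129567800), (1869788177829320822028662543632827180, -21017452629338769027893085771128400), (39200050621892189442911363186396354000, -585155311263046991675395037032432640), (827883021578022122688282245651116430540, -16052643275366470030597836307042786400), (17607142829302848353088346062217679121880, -434721319160845428452398507335368054960), (376969012828727759731676114725306275269580, -11639754759056646141096193220821395544280), (8122448152686782272124153757834853276034640, -308548586116779740422473139905050066979360)]⟩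

theorem c10_1_10_2_ok : okB 6 true true c10_1_10_2 = true := by
  decide +kernel

end Vale.Agent.P348.K
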