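import Vale.Agent.P348.C.MF2

namespace Vale.Agent.P348.K

def c10_1_9_1 : Ch :=
  ⟨9, 149,
    [(1265, 20), (1267, 20), (1277, 20), (1283, 20), (1285, 20), (1289, 20), (1313, 20), (1319, 20), (1321, 20), (1331, 20), (1337, 20), (1339, 10), (1343, 20), (1355, 20), (1361, 20), (1385, 20), (1391, 20), (1397, 20), (1409, 20), (1415, 20), (1433, 20), (1511, 20), (1529, 20), (1535, 20), (1565, 20), (1583, 20), (1589, 20), (1601, 20), (1607, 20), (1613, 20), (1637, 20), (1643, 20), (1655, 20), (1661, 20), (1667, 10), (1679, 20), (1727, 20), (1745, 20), (1751, 20), (1763, 20), (1769, 20), (1799, 20), (1805, 20), (1817, 20), (1823, 10), (1871, 20), (1961, 20), (1979, 10), (2321, 20), (2339, 20), (2345, 20), (2347, 10), (2375, 20), (2393, 20), (2399, 10), (2411, 10), (2483, 20), (2501, 20), (2507, 20), (2509, 20), (2537, 20), (2555, 20), (2561, 20)],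
    [(1190, 0), (11720, 0), (127440, 0), (1495020, 0), (18644500, 0), (244637780, 0), (3351498040, 0), (47658798760, 0), (700194652900, 0), (10588556478580, 0), (164307609558240, 0), (2609553221098580, 0), (42327706960640980, 0), (699907658168970280, 0), (11779894917523702300, 0), (201536881229560537460, 0), (3501004551812942278760, 0), (61693588613474014420140, 0), (1101897194399278945184860, 0), (19933825073812313334220860, 0), (365027148863905887015570800, 0), (6762618773577156293145763860, 0), (126694290257112813128882267500, 0), (2399217395119524978892406994580, 0), (45907764695561436037366338061280, 0), (887260691097611682679953171841980, 0), (17314766350052242784961734161159100, 0), (341065807154062932184293356201948160, 0), (6779121821904488012301270907022667480, 0), (135918922483841117278516902983936772680, 0), (2747982620086879260327538152493488787740, 0)]⟩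

theorem c10_1_9_1_ok : okB 6 true false c10_1_9_1 = true := by
  decide +kernel

end Vale.Agent.P348.K
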